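import Vale.Agent.P014T.Sy.Gp

/-!
# P014T, block SY: the symbol of level `2 ^ n` of two equivariant functions on a finite `D`-set
-/

noncomputable section

namespace Vale.Agent.P014T.Sy

open Vale.Agent.P022 Vale.Agent.P022K Finset
open Vale.Agent.P004S.Ga (K O mem_O d2 d3 Z2 B2)
open Vale.Agent.P004S.Aq
open Vale.Agent.P004F.Rc (hn hn_mul O_nat)

/-- a field with an action of `D`, smooth on `A`, and an invariant -/
structure Fd (L : Type) [Field L] where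
  D : Subgroup GQ
  e : Qb →+* L
  ρ : GQ → L →+* L
  A : Subfield L
  ι : (GQ → GQ → K) → K ⧸ O
  mul : ∀ g ∈ D, ∀ h ∈ D, ∀ x ∈ A, ρ (g * h) x = ρ g (ρ h x)
  emb : ∀ g ∈ D, ∀ x, ρ g (e x) = e (g x)
  rt : ∀ x, x ^ 2 ∈ A → x ∈ A
  lc : ∀ x ∈ A, Lc D fun g => ρ g x
  iv : Iv D ι

theorem Iv.sum {D : Subgroup GQ} {ι : (GQ → GQ → K) → K ⧸ O} (i : Iv D ι) {I : Type} (J : Finset I)
    {z : I → GQ → GQ → K} (a : ∀ j ∈ J, Z2 cy D (z j)) :
    Z2 cy D (fun g h => ∑ j ∈ J, z j g h) ∧ ι (fun g h => ∑ j ∈ J, z j g h) = ∑ j ∈ J, ι (z j) := by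
  classical
  induction J using Finset.induction_on with
  | empty =>
    have : Z2 cy D fun _ _ => 0 := ⟨continuousOn_const, fun _ _ _ _ _ _ => by simp [d3]⟩
    exact ⟨this, i.cob _ this (b2_of fun _ _ _ _ => zero_mem _)⟩
  | insert j J hj ih =>
    have b := ih fun k hk => a k (mem_insert_of_mem hk)
    simp only [sum_insert hj]
    exact ⟨z2_add (a j (mem_insert_self _ _)) b.1,
      by rw [i.add _ _ (a j (mem_insert_self _ _)) b.1, b.2]⟩

namespace Fd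

variable {L X Y : Type} [Field L] (F : Fd L)

theorem one {x : L} (h : x ∈ F.A) : F.ρ 1 x = x :=
  (F.ρ 1).injective (by rw [← F.mul 1 (one_mem _) 1 (one_mem _) x h, mul_one])

theorem rt_pow (n : ℕ) {x : L} (h : x ^ 2 ^ n ∈ F.A) : x ∈ F.A := by
  induction n with
  | zero => simpa using h
  | succ n ih => exact ih (F.rt _ (by rwa [← pow_mul, ← pow_succ]))

theorem ex_mem (x : K) : F.e (ex x) ∈ F.A :=
  (lev_ex x).elim fun k h => F.rt_pow k (by rw [← map_pow, ex_root.2 h, map_one]; exact one_mem _)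

theorem ex_act {g : GQ} (hg : g ∈ F.D) (x : K) : F.ρ g (F.e (ex x)) = F.e (ex (cy g * x)) := by
  rw [F.emb g hg, ex_cy]

theorem ex_nz (x : K) : F.e (ex x) ≠ 0 := (map_ne_zero _).2 (ex_ne x)

theorem prim (n : ℕ) : IsPrimitiveRoot (F.e (ex (hn n))) (2 ^ n) :=
  (ex_prim' n).map_of_injective F.e.injective

/-- the logarithm of a root of unity -/
def lg (η : L) : K := Sy.lg (Function.invFun F.e η)

theorem ex_lg {η : L} {n : ℕ} (h : η ^ 2 ^ n = 1) : F.e (ex (F.lg η)) = η := by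
  obtain ⟨m, -, rfl⟩ := (F.prim n).eq_pow_of_pow_eq_one h
  rw [← map_pow, lg, Function.leftInverse_invFun F.e.injective, Sy.ex_lg (n := n)]
  rw [← pow_mul, mul_comm, pow_mul, (ex_prim' n).pow_eq_one, one_pow]

theorem ex_rt {x : K} {n : ℕ} : F.e (ex x) ^ 2 ^ n = 1 ↔ 2 ^ n * x ∈ O := by
  rw [← ex_root, ← map_pow, map_eq_one_iff _ F.e.injective]

/-- nowhere vanishing equivariant functions -/
def G (α : GQ → X → X) (S : Finset X) : Submonoid (X → L) where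
  carrier := {a | ∀ x ∈ S, a x ≠ 0 ∧ a x ∈ F.A ∧ ∀ g ∈ F.D, F.ρ g (a x) = a (α g x)}
  one_mem' _ _ := ⟨one_ne_zero, one_mem _, fun _ _ => map_one _⟩
  mul_mem' ha hb x hx := ⟨mul_ne_zero (ha x hx).1 (hb x hx).1, mul_mem (ha x hx).2.1 (hb x hx).2.1,
    fun g hg => by rw [Pi.mul_apply, map_mul, (ha x hx).2.2 g hg, (hb x hx).2.2 g hg, Pi.mul_apply]⟩

/-- `k` is a Kummer cocycle of `a` of level `n` -/
def Ku (α : GQ → X → X) (S : Finset X) (n : ℕ) (a : X → L) (k : GQ → X → K) : Prop :=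
  ∃ β : X → L, (∀ x ∈ S, β x ^ 2 ^ n = a x) ∧ (∀ x ∈ S, ContinuousOn (fun g => k g x) F.D) ∧
    ∀ g ∈ F.D, ∀ x ∈ S, F.ρ g (β x) = F.e (ex (k g x)) * β (α g x)

/-- the Kummer function of `β` -/
def kp (α : GQ → X → X) (β : X → L) (g : GQ) (x : X) : K := F.lg (F.ρ g (β x) / β (α g x))

variable {F} {α : GQ → X → X} {S : Finset X} {α' : GQ → Y → Y} {R : Finset Y} {n : ℕ}
  {a a' b b' c β : X → L} {k k' l : GQ → X → K} {τ τ' : X → K}

theorem mem_G : a ∈ F.G α S ↔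
    ∀ x ∈ S, a x ≠ 0 ∧ a x ∈ F.A ∧ ∀ g ∈ F.D, F.ρ g (a x) = a (α g x) := Iff.rfl

theorem G_neg (ha : a ∈ F.G α S) : -a ∈ F.G α S := fun x hx =>
  ⟨neg_ne_zero.2 (ha x hx).1, neg_mem (ha x hx).2.1, fun g hg => by
    rw [Pi.neg_apply, map_neg, (ha x hx).2.2 g hg, Pi.neg_apply]⟩

theorem G_inv (ha : a ∈ F.G α S) : a⁻¹ ∈ F.G α S := fun x hx =>
  ⟨inv_ne_zero (ha x hx).1, inv_mem (ha x hx).2.1, fun g hg => by
    rw [Pi.inv_apply, map_inv₀, (ha x hx).2.2 g hg, Pi.inv_apply]⟩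

theorem G_congr (d : Ds F.D α S) (ha : a ∈ F.G α S) (e : ∀ x ∈ S, a' x = a x) : a' ∈ F.G α S :=
  fun x hx => by
    rw [e x hx]
    exact ⟨(ha x hx).1, (ha x hx).2.1, fun g hg => by
      rw [e _ (d.mem g hg x hx), (ha x hx).2.2 g hg]⟩

theorem G_sub (ha : a ∈ F.G α S) {S' : Finset X} (e : S' ⊆ S) : a ∈ F.G α S' :=
  fun x hx => ha x (e hx)

theorem G_pull {π : Y → X} (ha : a ∈ F.G α S) (p : Mp F.D α' R α S π) : a ∘ π ∈ F.G α' R :=
  fun y hy => ⟨(ha _ (p.mem y hy)).1, (ha _ (p.mem y hy)).2.1, fun g hg => by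
    rw [Function.comp, Function.comp, p.eq g hg y hy, (ha _ (p.mem y hy)).2.2 g hg]⟩

theorem G_push [DecidableEq X] {π : Y → X} {u : Y → L} (hu : u ∈ F.G α' R) (p : Mp F.D α' R α S π)
    (d : Ds F.D α S) (d' : Ds F.D α' R) (e : ∀ x ∈ S, a x = ∏ y ∈ R with π y = x, u y) :
    a ∈ F.G α S := fun x hx => by
  rw [e x hx]
  refine ⟨prod_ne_zero_iff.2 fun y hy => (hu y (mem_filter.1 hy).1).1,
    prod_mem fun y hy => (hu y (mem_filter.1 hy).1).2.1, fun g hg => ?_⟩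
  rw [e _ (d.mem g hg x hx), map_prod, ← p.prod d d' hg hx]
  exact prod_congr rfl fun y hy => (hu y (mem_filter.1 hy).1).2.2 g hg

theorem rt_ne (ha : a ∈ F.G α S) (h : ∀ x ∈ S, β x ^ 2 ^ n = a x) {x : X} (hx : x ∈ S) : β x ≠ 0 :=
  fun e => (ha x hx).1 (by rw [← h x hx, e, zero_pow (by positivity)])

theorem ku_kp (d : Ds F.D α S) (ha : a ∈ F.G α S) (h : ∀ x ∈ S, β x ^ 2 ^ n = a x) :
    F.Ku α S n a (F.kp α β) := by
  refine ⟨β, h, fun x hx => ((F.lc _ (F.rt_pow n (h x hx ▸ (ha x hx).2.1))).two (d.lc x hx)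
    fun s y => F.lg (s / β y)).cont, fun g hg x hx => ?_⟩
  have m := d.mem g hg x hx
  rw [kp, F.ex_lg (n := n), div_mul_cancel₀ _ (rt_ne ha h m)]
  rw [div_pow, ← map_pow, h x hx, h _ m, (ha x hx).2.2 g hg, div_self (ha _ m).1]

theorem Ku.c1 (h : F.Ku α S n a k) (d : Ds F.D α S) (ha : a ∈ F.G α S) : C1 F.D α S n cy k := by
  obtain ⟨β, h1, h2, h3⟩ := h
  refine ⟨h2, fun g hg x hx => F.ex_rt.1 ?_, fun g hg j hj x hx => ?_⟩
  · have m := d.mem g hg x hx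
    have := congrArg (· ^ 2 ^ n) (h3 g hg x hx)
    simp only [mul_pow] at this
    rw [← map_pow, h1 x hx, h1 _ m, (ha x hx).2.2 g hg] at this
    exact mul_right_cancel₀ (ha _ m).1 (by rw [← this, one_mul])
  · have m := d.mem j hj x hx
    have e := h3 _ (mul_mem hg hj) x hx
    rw [F.mul g hg j hj _ (F.rt_pow n (h1 x hx ▸ (ha x hx).2.1)), h3 j hj x hx, map_mul,
      F.ex_act hg, h3 g hg _ m, ← mul_assoc, ← map_mul, ← ex_add, d.mul g hg j hj x hx] at e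
    exact O_of (ex_eq.1 (F.e.injective
      (mul_right_cancel₀ (rt_ne ha h1 (d.mem g hg _ m)) e)).symm) (by ring)

theorem Ku.dif (h : F.Ku α S n a k) (h' : F.Ku α S n a k') (d : Ds F.D α S) (ha : a ∈ F.G α S) :
    ∃ c : X → K, (∀ x ∈ S, 2 ^ n * c x ∈ O) ∧
      ∀ g ∈ F.D, ∀ x ∈ S, k g x - k' g x - (cy g * c x - c (α g x)) ∈ O := by
  obtain ⟨β, h1, -, h3⟩ := h
  obtain ⟨β', h1', -, h3'⟩ := h'
  have r (x) (hx : x ∈ S) : (β x / β' x) ^ 2 ^ n = 1 := by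
    rw [div_pow, h1 x hx, h1' x hx, div_self (ha x hx).1]
  have s (x) (hx : x ∈ S) : β x = F.e (ex (F.lg (β x / β' x))) * β' x := by
    rw [F.ex_lg (r x hx), div_mul_cancel₀ _ (rt_ne ha h1' hx)]
  refine ⟨fun x => F.lg (β x / β' x), fun x hx => F.ex_rt.1 (by rw [F.ex_lg (r x hx), r x hx]),
    fun g hg x hx => ?_⟩
  have m := d.mem g hg x hx
  have e := h3 g hg x hx
  rw [s x hx, s _ m, map_mul, F.ex_act hg, h3' g hg x hx, ← mul_assoc, ← mul_assoc, ← map_mul,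
    ← map_mul, ← ex_add, ← ex_add] at e
  exact O_of (ex_eq.1 (F.e.injective (mul_right_cancel₀ (rt_ne ha h1' m) e)).symm) (by ring)

theorem Ku.mul (h : F.Ku α S n a k) (h' : F.Ku α S n b l) :
    F.Ku α S n (a * b) fun g x => k g x + l g x := by
  obtain ⟨β, h1, h2, h3⟩ := h
  obtain ⟨β', h1', h2', h3'⟩ := h'
  exact ⟨β * β', fun x hx => by rw [Pi.mul_apply, mul_pow, h1 x hx, h1' x hx, Pi.mul_apply],
    fun x hx => (h2 x hx).add (h2' x hx), fun g hg x hx => by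
      rw [Pi.mul_apply, map_mul, h3 g hg x hx, h3' g hg x hx, ex_add, map_mul, Pi.mul_apply]; ring⟩

theorem Ku.congr (h : F.Ku α S n a k) (e : ∀ x ∈ S, a' x = a x) : F.Ku α S n a' k :=
  h.imp fun _ h => ⟨fun x hx => by rw [h.1 x hx, e x hx], h.2⟩

theorem Ku.sub (h : F.Ku α S n a k) {S' : Finset X} (e : S' ⊆ S) : F.Ku α S' n a k :=
  h.imp fun _ h => ⟨fun x hx => h.1 x (e hx), fun x hx => h.2.1 x (e hx),
    fun g hg x hx => h.2.2 g hg x (e hx)⟩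

theorem ku_zero (hc : c ∈ F.G α S) (e : ∀ x ∈ S, c x ^ 2 ^ n = a x) : F.Ku α S n a fun _ _ => 0 :=
  ⟨c, e, fun _ _ => continuousOn_const, fun g hg x hx => by
    rw [ex_zero, map_one, one_mul, (hc x hx).2.2 g hg]⟩

theorem Ku.down {f : ℕ} (h : F.Ku α S (n + f) a k) : F.Ku α S n a fun g x => 2 ^ f * k g x := by
  obtain ⟨β, h1, h2, h3⟩ := h
  refine ⟨fun x => β x ^ 2 ^ f, fun x hx => by rw [← pow_mul, ← pow_add, add_comm, h1 x hx],
    fun x hx => continuousOn_const.mul (h2 x hx), fun g hg x hx => ?_⟩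
  have := ex_nat (2 ^ f) (k g x)
  push_cast at this
  rw [map_pow, h3 g hg x hx, mul_pow, this, map_pow]

theorem Ku.pull {π : Y → X} (h : F.Ku α S n a k) (p : Mp F.D α' R α S π) :
    F.Ku α' R n (a ∘ π) fun g y => k g (π y) := by
  obtain ⟨β, h1, h2, h3⟩ := h
  exact ⟨β ∘ π, fun y hy => h1 _ (p.mem y hy), fun y hy => h2 _ (p.mem y hy), fun g hg y hy => by
    rw [Function.comp, Function.comp, p.eq g hg y hy, h3 g hg _ (p.mem y hy)]⟩

theorem Ku.push [DecidableEq X] {π : Y → X} {u : Y → L} {k : GQ → Y → K} (h : F.Ku α' R n u k)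
    (p : Mp F.D α' R α S π) (d : Ds F.D α S) (d' : Ds F.D α' R)
    (e : ∀ x ∈ S, a x = ∏ y ∈ R with π y = x, u y) :
    F.Ku α S n a fun g x => ∑ y ∈ R with π y = x, k g y := by
  obtain ⟨β, h1, h2, h3⟩ := h
  refine ⟨fun x => ∏ y ∈ R with π y = x, β y, fun x hx => ?_,
    fun x _ => continuousOn_finsetSum _ fun y hy => h2 y (mem_filter.1 hy).1, fun g hg x hx => ?_⟩
  · rw [e x hx, ← prod_pow]
    exact prod_congr rfl fun y hy => h1 y (mem_filter.1 hy).1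
  · simp only
    rw [← p.prod d d' hg hx, ex_sum, map_prod, map_prod, ← prod_mul_distrib]
    exact prod_congr rfl fun y hy => h3 g hg y (mem_filter.1 hy).1

variable [IsAlgClosed L]

/-- a root of order `2 ^ n` -/
def ro (n : ℕ) (a : X → L) (x : X) : L :=
  (IsAlgClosed.exists_pow_nat_eq (a x) (n := 2 ^ n) (by positivity)).choose

theorem ro_pow (n : ℕ) (a : X → L) (x : X) : ro n a x ^ 2 ^ n = a x :=
  (IsAlgClosed.exists_pow_nat_eq (a x) (n := 2 ^ n) (by positivity)).choose_spec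

theorem ex_ku (d : Ds F.D α S) (ha : a ∈ F.G α S) (n : ℕ) : ∃ k, F.Ku α S n a k :=
  ⟨_, ku_kp d ha fun x _ => ro_pow n a x⟩

variable (F) in
/-- the symbol -/
def sym (α : GQ → X → X) (S : Finset X) (n : ℕ) (τ : X → K) (a b : X → L) : K ⧸ O :=
  F.ι (cup α S n (fun g x => τ (α g x) * F.kp α (ro n a) g x) (F.kp α (ro n b)))

section one

variable (d : Ds F.D α S) (t : Tw F.D α S n τ) (ha : a ∈ F.G α S) (hb : b ∈ F.G α S)
include d t ha hb

theorem sym_eq (h : F.Ku α S n a k) (h' : F.Ku α S n b l) :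
    F.sym α S n τ a b = F.ι (cup α S n (fun g x => τ (α g x) * k g x) l) := by
  have p := ku_kp d ha fun x _ => ro_pow n a x
  have q := ku_kp d hb fun x _ => ro_pow n b x
  obtain ⟨c, c1, c2⟩ := p.dif h d ha
  obtain ⟨c', c1', c2'⟩ := q.dif h' d hb
  exact F.iv.cup d ((p.c1 d ha).tw d t) ((h.c1 d ha).tw d t) (q.c1 d hb) (h'.c1 d hb)
    (v := fun x => τ x * c x) (fun x hx => O_of (O_mul (t.mem x hx) (c1 x hx)) (by ring)) c1'
    (fun g hg x hx => O_of (add_mem (O_mul (t.mem _ (d.mem g hg x hx)) (c2 g hg x hx))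
      (O_hn (t.eq g hg x hx) (c1 x hx))) (by ring)) c2'

omit [IsAlgClosed L] in
theorem z2 (h : F.Ku α S n a k) (h' : F.Ku α S n b l) :
    Z2 cy F.D (cup α S n (fun g x => τ (α g x) * k g x) l) :=
  cup_z2 d ((h.c1 d ha).tw d t) (h'.c1 d hb)

theorem ml (ha' : a' ∈ F.G α S) :
    F.sym α S n τ (a * a') b = F.sym α S n τ a b + F.sym α S n τ a' b := by
  obtain ⟨k, p⟩ := ex_ku d ha n
  obtain ⟨k', p'⟩ := ex_ku d ha' n
  obtain ⟨l, q⟩ := ex_ku d hb n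
  rw [sym_eq d t (mul_mem ha ha') hb (p.mul p') q, sym_eq d t ha hb p q, sym_eq d t ha' hb p' q,
    ← F.iv.add _ _ (z2 d t ha hb p q) (z2 d t ha' hb p' q)]
  refine congrArg F.ι (funext₂ fun g h => ?_)
  simp only [cup, ← sum_add_distrib]
  exact sum_congr rfl fun _ _ => by ring

theorem skew : F.sym α S n τ a b + F.sym α S n τ b a = 0 := by
  obtain ⟨k, p⟩ := ex_ku d ha n
  obtain ⟨l, q⟩ := ex_ku d hb n
  rw [sym_eq d t ha hb p q, sym_eq d t hb ha q p,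
    ← F.iv.add _ _ (z2 d t ha hb p q) (z2 d t hb ha q p)]
  exact F.iv.cob _ (z2_add (z2 d t ha hb p q) (z2 d t hb ha q p))
    (cob_skew d t (p.c1 d ha) (q.c1 d hb))

theorem anti : F.sym α S n τ a b = -F.sym α S n τ b a := eq_neg_of_add_eq_zero_left (skew d t ha hb)

theorem mr (hb' : b' ∈ F.G α S) :
    F.sym α S n τ a (b * b') = F.sym α S n τ a b + F.sym α S n τ a b' := by
  rw [anti d t ha (mul_mem hb hb'), ml d t hb ha hb', anti d t ha hb, anti d t ha hb', neg_add]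

theorem sym_congr (e : ∀ x ∈ S, a' x = a x) (e' : ∀ x ∈ S, b' x = b x) (t' : Tw F.D α S n τ')
    (e'' : ∀ x ∈ S, hn n * (τ' x - τ x) ∈ O) : F.sym α S n τ' a' b' = F.sym α S n τ a b := by
  obtain ⟨k, p⟩ := ex_ku d ha n
  obtain ⟨l, q⟩ := ex_ku d hb n
  rw [sym_eq d t' (G_congr d ha e) (G_congr d hb e') (p.congr e) (q.congr e'), sym_eq d t ha hb p q]
  exact (F.iv.congr (z2 d t ha hb p q) (z2 d t' ha hb p q) fun g hg h hh =>
    cup_congr d ((p.c1 d ha).tw d t) (q.c1 d hb) (fun g hg x hx => O_of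
      (O_hn (e'' _ (d.mem g hg x hx)) ((p.c1 d ha).lev g hg x hx)) (by ring))
      (fun _ _ _ _ => by simp) hg hh).symm

theorem sym_tau (t' : Tw F.D α S n τ') :
    F.sym α S n (τ + τ') a b = F.sym α S n τ a b + F.sym α S n τ' a b := by
  rw [sym, sym, sym, ← F.iv.add _ _ (z2 d t ha hb (ku_kp d ha fun x _ => ro_pow n a x)
    (ku_kp d hb fun x _ => ro_pow n b x)) (z2 d t' ha hb (ku_kp d ha fun x _ => ro_pow n a x)
    (ku_kp d hb fun x _ => ro_pow n b x))]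
  refine congrArg F.ι (funext₂ fun g h => ?_)
  simp only [cup, ← sum_add_distrib, Pi.add_apply]
  exact sum_congr rfl fun _ _ => by ring

theorem sym_nat (m : ℕ) : F.sym α S n (fun x => m * τ x) a b = m • F.sym α S n τ a b := by
  rw [sym, sym, ← F.iv.nat (z2 d t ha hb (ku_kp d ha fun x _ => ro_pow n a x)
    (ku_kp d hb fun x _ => ro_pow n b x))]
  refine congrArg F.ι (funext₂ fun g h => ?_)
  simp only [cup, mul_sum]
  exact sum_congr rfl fun _ _ => by ring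

theorem triv_l (hc : c ∈ F.G α S) (e : ∀ x ∈ S, c x ^ 2 ^ n = a x) : F.sym α S n τ a b = 0 := by
  obtain ⟨l, q⟩ := ex_ku d hb n
  rw [sym_eq d t ha hb (ku_zero hc e) q]
  exact F.iv.cob _ (z2 d t ha hb (ku_zero hc e) q) (b2_of fun _ _ _ _ => by simp [cup])

theorem triv_r (hc : c ∈ F.G α S) (e : ∀ x ∈ S, c x ^ 2 ^ n = b x) : F.sym α S n τ a b = 0 := by
  rw [anti d t ha hb, triv_l d t hb ha hc e, neg_zero]

theorem pow_l (m : ℕ) : F.sym α S n τ (a ^ m) b = m • F.sym α S n τ a b := by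
  induction m with
  | zero =>
    rw [pow_zero, zero_nsmul]
    exact triv_l d t (one_mem _) hb (one_mem _) fun _ _ => one_pow _
  | succ m ih => rw [pow_succ, ml d t (pow_mem ha m) hb ha, ih, succ_nsmul]

theorem pow_r (m : ℕ) : F.sym α S n τ a (b ^ m) = m • F.sym α S n τ a b := by
  rw [anti d t ha (pow_mem hb m), pow_l d t hb ha, anti d t ha hb, neg_nsmul]

theorem sym_tor : 2 ^ n • F.sym α S n τ a b = 0 := by
  rw [← pow_l d t ha hb]
  exact triv_l d t (pow_mem ha _) hb ha fun _ _ => rfl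

/-- decomposition along an invariant function -/
theorem sym_fib {I : Type} [DecidableEq I] (c : X → I) (J : Finset I) (m : ∀ x ∈ S, c x ∈ J)
    (hc : ∀ g ∈ F.D, ∀ x ∈ S, c (α g x) = c x) :
    F.sym α S n τ a b = ∑ i ∈ J, F.sym α {x ∈ S | c x = i} n τ a b := by
  have s (i : I) : {x ∈ S | c x = i} ⊆ S := filter_subset _ _
  have := (F.iv.sum J fun i _ => z2 (d.sub (s i) fun g hg x hx => by
    rw [mem_filter] at hx ⊢
    exact ⟨d.mem g hg x hx.1, by rw [hc g hg x hx.1, hx.2]⟩) (t.sub (s i)) (G_sub ha (s i))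
    (G_sub hb (s i)) ((ku_kp d ha fun x _ => ro_pow n a x).sub (s i))
    ((ku_kp d hb fun x _ => ro_pow n b x).sub (s i))).2
  simp only [sym]
  rw [← this]
  exact congrArg F.ι (funext₂ fun g h => (sum_fiberwise_of_maps_to m _).symm)

theorem sym_union [DecidableEq X] {S₁ S₂ : Finset X} (e : S = S₁ ∪ S₂) (j : Disjoint S₁ S₂)
    (m₁ : ∀ g ∈ F.D, ∀ x ∈ S₁, α g x ∈ S₁) (m₂ : ∀ g ∈ F.D, ∀ x ∈ S₂, α g x ∈ S₂) :
    F.sym α S n τ a b = F.sym α S₁ n τ a b + F.sym α S₂ n τ a b := by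
  subst e
  have p := ku_kp d ha fun x _ => ro_pow n a x
  have q := ku_kp d hb fun x _ => ro_pow n b x
  have s₁ : S₁ ⊆ S₁ ∪ S₂ := subset_union_left
  have s₂ : S₂ ⊆ S₁ ∪ S₂ := subset_union_right
  simp only [sym]
  rw [← F.iv.add _ _ (z2 (d.sub s₁ m₁) (t.sub s₁) (G_sub ha s₁) (G_sub hb s₁) (p.sub s₁) (q.sub s₁))
    (z2 (d.sub s₂ m₂) (t.sub s₂) (G_sub ha s₂) (G_sub hb s₂) (p.sub s₂) (q.sub s₂))]
  exact congrArg F.ι (funext₂ fun g h => sum_union j)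

end one

/-- change of level -/
theorem level {f : ℕ} (d : Ds F.D α S) (t : Tw F.D α S (n + f) τ) (ha : a ∈ F.G α S)
    (hb : b ∈ F.G α S) : F.sym α S n τ a b = 2 ^ f • F.sym α S (n + f) τ a b := by
  obtain ⟨k, p⟩ := ex_ku d ha (n + f)
  obtain ⟨l, q⟩ := ex_ku d hb (n + f)
  rw [sym_eq d (t.down (Nat.le_add_right n f)) ha hb p.down q.down, sym_eq d t ha hb p q,
    ← F.iv.nat (z2 d t ha hb p q)]
  refine congrArg F.ι (funext₂ fun g h => ?_)
  simp only [cup, mul_sum]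
  exact sum_congr rfl fun _ _ => by push_cast; ring

section two

variable [DecidableEq X] {π : Y → X} {u : Y → L} (p : Mp F.D α' R α S π) (d : Ds F.D α S)
  (d' : Ds F.D α' R) (t : Tw F.D α S n τ)
include p d d' t

/-- the projection formula -/
theorem prj (hu : u ∈ F.G α' R) (hb : b ∈ F.G α S) (e : ∀ x ∈ S, a x = ∏ y ∈ R with π y = x, u y) :
    F.sym α' R n (τ ∘ π) (b ∘ π) u = F.sym α S n τ b a ∧
      F.sym α' R n (τ ∘ π) u (b ∘ π) = F.sym α S n τ a b := by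
  have ha := G_push hu p d d' e
  suffices h : F.sym α' R n (τ ∘ π) (b ∘ π) u = F.sym α S n τ b a from
    ⟨h, by rw [anti d' (t.pull p) hu (G_pull hb p), h, anti d t ha hb]⟩
  obtain ⟨k, r⟩ := ex_ku d' hu n
  obtain ⟨l, q⟩ := ex_ku d hb n
  rw [sym_eq d t hb ha q (r.push p d d' e), sym_eq d' (t.pull p) (G_pull hb p) hu (q.pull p) r]
  refine F.iv.congr (z2 d' (t.pull p) (G_pull hb p) hu (q.pull p) r)
    (z2 d t hb ha q (r.push p d d' e)) fun g hg h hh => ?_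
  rw [← cup_push_r p _ _ hh]
  refine O_of (zero_mem O) (sub_eq_zero.2 (sum_congr rfl fun y hy => ?_))
  simp only [Function.comp, p.eq g hg _ (d'.mem h hh y hy)]

/-- pull back along a map with fibres of cardinality `m` -/
theorem pull (ha : a ∈ F.G α S) (hb : b ∈ F.G α S) {m : ℕ}
    (e : ∀ x ∈ S, #{y ∈ R | π y = x} = m) :
    F.sym α' R n (τ ∘ π) (a ∘ π) (b ∘ π) = m • F.sym α S n τ a b := by
  rw [← pow_l d t ha hb]
  refine (prj p d d' t (G_pull ha p) hb fun x hx => ?_).2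
  rw [Pi.pow_apply, ← e x hx, ← prod_const]
  exact prod_congr rfl fun y hy => by rw [Function.comp, (mem_filter.1 hy).2]

end two

open Classical in
/-- the set of the roots of order `2 ^ f` of `w` -/
def Rs (S : Finset X) (f : ℕ) (w : X → L) : Finset (X × L) :=
  S.biUnion fun x => (Polynomial.nthRoots (2 ^ f) (w x)).toFinset.image (Prod.mk x)

variable (F) in
/-- the action on pairs -/
def ra (α : GQ → X → X) (g : GQ) (p : X × L) : X × L := (α g p.1, F.ρ g p.2)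

omit [IsAlgClosed L] in
theorem mem_rs {f : ℕ} {p : X × L} : p ∈ Rs S f a ↔ p.1 ∈ S ∧ p.2 ^ 2 ^ f = a p.1 := by
  simp only [Rs, mem_biUnion, mem_image, Multiset.mem_toFinset,
    Polynomial.mem_nthRoots (Nat.two_pow_pos f)]
  exact ⟨fun ⟨x, h, y, e, q⟩ => q ▸ ⟨h, e⟩, fun h => ⟨p.1, h.1, p.2, h.2, rfl⟩⟩

omit [IsAlgClosed L] in
theorem rs_ds (d : Ds F.D α S) (ha : a ∈ F.G α S) (f : ℕ) : Ds F.D (F.ra α) (Rs S f a) := by
  have m {p : X × L} (h : p ∈ Rs S f a) : p.2 ∈ F.A :=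
    F.rt_pow f ((mem_rs.1 h).2 ▸ (ha _ (mem_rs.1 h).1).2.1)
  refine ⟨fun g hg p h => mem_rs.2 ⟨d.mem g hg _ (mem_rs.1 h).1, ?_⟩,
    fun p h => Prod.ext (d.one _ (mem_rs.1 h).1) (F.one (m h)),
    fun g hg j hj p h => Prod.ext (d.mul g hg j hj _ (mem_rs.1 h).1) (F.mul g hg j hj _ (m h)),
    fun p h => (d.lc _ (mem_rs.1 h).1).two (F.lc _ (m h)) Prod.mk⟩
  rw [ra, ← map_pow, (mem_rs.1 h).2, (ha _ (mem_rs.1 h).1).2.2 g hg]

omit [IsAlgClosed L] in
theorem rs_mp (f : ℕ) : Mp F.D (F.ra α) (Rs S f a) α S Prod.fst :=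
  ⟨fun _ h => (mem_rs.1 h).1, fun _ _ _ _ => rfl⟩

omit [IsAlgClosed L] in
theorem rs_snd (ha : a ∈ F.G α S) (f : ℕ) : Prod.snd ∈ F.G (F.ra α) (Rs S f a) := fun p h =>
  ⟨fun e => (ha _ (mem_rs.1 h).1).1 (by rw [← (mem_rs.1 h).2, e, zero_pow (by positivity)]),
    F.rt_pow f ((mem_rs.1 h).2 ▸ (ha _ (mem_rs.1 h).1).2.1), fun _ _ => rfl⟩

omit [IsAlgClosed L] in
variable (F) in
theorem rs_fib [DecidableEq X] {M : Type} [CommMonoid M] {f : ℕ} {x : X} (hx : x ∈ S) {γ : L}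
    (h0 : γ ≠ 0) (h : γ ^ 2 ^ f = a x) (φ : L → M) : ∏ p ∈ Rs S f a with p.1 = x, φ p.2 =
      ∏ i ∈ range (2 ^ f), φ (F.e (ex (hn f)) ^ i * γ) := by
  refine (prod_nbij (fun i => (x, F.e (ex (hn f)) ^ i * γ)) (fun i _ => mem_filter.2
    ⟨mem_rs.2 ⟨hx, ?_⟩, rfl⟩) (fun i hi j hj e => (F.prim f).pow_inj (mem_range.1 hi)
      (mem_range.1 hj) (mul_right_cancel₀ h0 (congrArg Prod.snd e))) (fun q hq => ?_)
    fun _ _ => rfl).symm
  · rw [mul_pow, ← pow_mul, mul_comm i, pow_mul, (F.prim f).pow_eq_one, one_pow, one_mul, h]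
  · obtain ⟨m, rfl⟩ := mem_filter.1 hq
    obtain ⟨i, hi, e⟩ := (F.prim f).eq_pow_of_pow_eq_one (ξ := q.2 / γ)
      (by rw [div_pow, (mem_rs.1 m).2, ← h, div_self (pow_ne_zero _ h0)])
    exact ⟨i, mem_range.2 hi, Prod.ext rfl (by simp only [e, div_mul_cancel₀ _ h0])⟩

variable (F) in
include F in
theorem rs_prod [DecidableEq X] {f : ℕ} {x : X} (hx : x ∈ S) (h0 : a x ≠ 0) (y : L) :
    ∏ p ∈ Rs S f a with p.1 = x, (y - p.2) = y ^ 2 ^ f - a x := by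
  have h := ro_pow f a x
  rw [F.rs_fib hx (fun e => h0 (by rw [← h, e, zero_pow (by positivity)])) h fun z => y - z]
  simpa [Polynomial.eval_prod] using
    (congrArg (Polynomial.eval y) (X_pow_sub_C_eq_prod (F.prim f) (Nat.two_pow_pos f) h)).symm

variable (F) in
include F in
theorem rs_card [DecidableEq X] {f : ℕ} {x : X} (hx : x ∈ S) (h0 : a x ≠ 0) :
    #{p ∈ Rs S f a | p.1 = x} = 2 ^ f := by
  have h := ro_pow f a x
  have := F.rs_fib (M := Multiplicative ℕ) hx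
    (fun e => h0 (by rw [← h, e, zero_pow (by positivity)])) h fun _ => .ofAdd 1
  rw [prod_const, prod_const, card_range, ← ofAdd_nsmul, ← ofAdd_nsmul] at this
  simpa using this

/-- the Steinberg relation -/
theorem st0 (d : Ds F.D α S) (t : Tw F.D α S n τ) (ha : a ∈ F.G α S)
    (hc : ∀ x ∈ S, c x ∈ F.A ∧ ∀ g ∈ F.D, F.ρ g (c x) = c (α g x)) (h0 : ∀ x ∈ S, b x ≠ 0)
    (e : ∀ x ∈ S, b x = c x ^ 2 ^ n - a x) : F.sym α S n τ b a = 0 := by
  classical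
  have s := rs_snd ha n
  have hu : (fun p => c p.1 - p.2) ∈ F.G (F.ra α) (Rs S n a) := fun p h => by
    have m := mem_rs.1 h
    refine ⟨fun z => h0 _ m.1 ?_, sub_mem (hc _ m.1).1 (s p h).2.1, fun g hg => ?_⟩
    · rw [e _ m.1, sub_eq_zero.1 z, m.2, sub_self]
    · rw [map_sub, (hc _ m.1).2 g hg, ra]
  rw [← (prj (rs_mp n) d (rs_ds d ha n) t hu ha fun x hx => ?_).2]
  · exact triv_r (rs_ds d ha n) (t.pull (rs_mp n)) hu (G_pull ha (rs_mp n)) s
      fun p h => (mem_rs.1 h).2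
  · rw [e x hx, ← F.rs_prod hx (ha x hx).1]
    exact prod_congr rfl fun p h => by rw [(mem_filter.1 h).2]

theorem st (d : Ds F.D α S) (t : Tw F.D α S n τ) (ha : a ∈ F.G α S) (hb : 1 - a ∈ F.G α S) :
    F.sym α S n τ (1 - a) a = 0 :=
  st0 (c := 1) d t ha (fun _ _ => ⟨one_mem _, fun _ _ => map_one _⟩) (fun x hx => (hb x hx).1)
    fun _ _ => by simp

theorem neg (d : Ds F.D α S) (t : Tw F.D α S n τ) (ha : a ∈ F.G α S) :
    F.sym α S n τ (-a) a = 0 :=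
  st0 (c := 0) d t ha (fun _ _ => ⟨zero_mem _, fun _ _ => map_zero _⟩)
    (fun x hx => (G_neg ha x hx).1) fun _ _ => by simp

end Fd

/-- the algebraic numbers -/
def fdQ (D : Subgroup GQ) {ι : (GQ → GQ → K) → K ⧸ O} (i : Iv D ι) : Fd Qb where
  D := D
  e := RingHom.id _
  ρ g := g.toRingEquiv.toRingHom
  A := ⊤
  ι := ι
  mul _ _ _ _ _ _ := rfl
  emb _ _ _ := rfl
  rt _ _ := trivial
  lc x _ := Lc.of_lc (Vale.Agent.P004F.Rc.lc_act x)
  iv := i

end Vale.Agent.P014T.Sy
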