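import Vale.Agent.P014T.Sy.Sym

/-!
# P014T, block SY: the symbol of elements close to one, and of roots of unity
-/

noncomputable section

namespace Vale.Agent.P014T.Sy

open Vale.Agent.P022 Vale.Agent.P022K Finset
open Vale.Agent.P004S.Ga (K O mem_O d2 d3 Z2 B2)
open Vale.Agent.P004S.Aq
open Vale.Agent.P004F.Rc (hn hn_mul O_nat)

section abv

variable {L : Type} [Field L] {v : AbsoluteValue L ℝ} (hv : IsNonarchimedean v) (h2 : (2 : L) ≠ 0)
include hv

theorem v_two : v 2 ≤ 1 := by simpa [one_add_one_eq_two] using hv 1 1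

theorem v_add {x y : L} (h : v x < v y) : v (x + y) = v y := by
  refine le_antisymm ((hv x y).trans (max_le h.le le_rfl)) ?_
  have := hv (x + y) (-x)
  rw [add_neg_cancel_comm, v.map_neg, le_max_iff] at this
  exact this.resolve_right h.not_ge

include h2

theorem near_uniq (n : ℕ) {η : L} (h : η ^ 2 ^ n = 1) (e : v (η - 1) < v 2) : η = 1 := by
  induction n generalizing η with
  | zero => simpa using h
  | succ n ih =>
    have s : v (η + 1) = v 2 := by rw [← v_add hv e]; congr 1; ring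
    have := ih (η := η ^ 2) (by rwa [← pow_mul, ← pow_succ']) (by
      rw [show η ^ 2 - 1 = (η - 1) * (η + 1) by ring, map_mul, s]
      exact (mul_le_of_le_one_right (v.nonneg _) (v_two hv)).trans_lt e)
    rcases mul_self_eq_one_iff.1 ((sq η).symm.trans this) with r | r
    · exact r
    · rw [r, neg_add_cancel, map_zero] at s
      exact absurd s (v.pos h2).ne

theorem near_ex [IsAlgClosed L] (n : ℕ) {a : L} (h : v (a - 1) < v 2 ^ (n + 1)) :
    ∃ β, β ^ 2 ^ n = a ∧ v (β - 1) < v 2 := by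
  have p := v.pos h2
  induction n generalizing a with
  | zero => exact ⟨a, by simp, by simpa using h⟩
  | succ n ih =>
    have key (b : L) (e : b ^ 2 = a) (s : v 2 ≤ v (b + 1)) :
        ∃ β, β ^ 2 ^ (n + 1) = a ∧ v (β - 1) < v 2 := by
      rw [← e, show b ^ 2 - 1 = (b - 1) * (b + 1) by ring, map_mul, pow_succ] at h
      obtain ⟨β, e1, e2⟩ := ih (lt_of_mul_lt_mul_right
        ((mul_le_mul_of_nonneg_left s (v.nonneg _)).trans_lt h) p.le)
      exact ⟨β, by rw [pow_succ, pow_mul, e1, e], e2⟩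
    obtain ⟨b, e⟩ := IsAlgClosed.exists_pow_nat_eq a two_pos
    have := hv (b + 1) (-b + 1)
    rw [show b + 1 + (-b + 1) = 2 by ring, le_max_iff] at this
    exact this.elim (key b e) (key (-b) (by rw [neg_sq, e]))

end abv

/-- a logarithm on the units -/
structure Lo (lo : K → K) : Prop where
  mul : ∀ x y, 2⁻¹ * (x - 1) ∈ O → 2⁻¹ * (y - 1) ∈ O → lo (x * y) = lo x + lo y
  mem : ∀ x, 2⁻¹ * (x - 1) ∈ O → lo x ∈ O
  near : ∀ n x, 2⁻¹ * (x - 1) ∈ O → hn n * (x - 1) ∈ O → hn (n + n) * (2 * (lo x - (x - 1))) ∈ O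
  cont : Continuous fun g => lo (cy g)

theorem hn_two (n : ℕ) : hn (n + n) = hn n * hn n := by simp only [hn, pow_add, mul_inv]

theorem un_mul {x y : K} (h : 2⁻¹ * (x - 1) ∈ O) (h' : 2⁻¹ * (y - 1) ∈ O) :
    2⁻¹ * (x * y - 1) ∈ O :=
  O_of (add_mem (add_mem (O_mul O_two (O_mul h h')) h) h') (by ring)

theorem un_inv {x : K} (h : 2⁻¹ * (x - 1) ∈ O) : ∃ y ∈ O, x * y = 1 :=
  Vale.Agent.P004F.Rc.unit (O_of (add_mem (O_mul O_two h) O_one) (by ring))
    fun e => half_not (O_of (sub_mem e h) (by ring))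

namespace Fd

variable {L X : Type} [Field L] {F : Fd L} {α : GQ → X → X} {S : Finset X} {n : ℕ}
  {a b u : X → L} {τ ε : X → K}

variable (F) in
include F in
theorem two_ne : (2 : L) ≠ 0 := by
  rw [← map_ofNat F.e 2]
  exact (map_ne_zero _).2 two_ne_zero

variable (F) in
/-- the root of unity attached to `ε` -/
def ze (n : ℕ) (ε : X → K) (x : X) : L := F.e (ex (hn n * ε x))

theorem ze_mem (he : ∀ g ∈ F.D, ∀ x ∈ S, hn n * (cy g * ε x - ε (α g x)) ∈ O) :
    F.ze n ε ∈ F.G α S := fun x hx => ⟨F.ex_nz _, F.ex_mem _, fun g hg => by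
  rw [ze, ze, F.ex_act hg]
  exact congrArg F.e (ex_eq.2 (O_of (he g hg x hx) (by ring)))⟩

theorem tw_eps (d : Ds F.D α S) (t : Tw F.D α S n τ) (m : ∀ x ∈ S, ε x ∈ O)
    (e : ∀ x ∈ S, hn n * (ε x * τ x - 1) ∈ O) :
    ∀ g ∈ F.D, ∀ x ∈ S, hn n * (cy g * ε x - ε (α g x)) ∈ O := fun g hg x hx => by
  have k := d.mem g hg x hx
  exact O_of (add_mem (sub_mem (O_mul (O_mul (m x hx) (m _ k)) (t.eq g hg x hx))
    (O_mul (O_mul (O_cy g) (m x hx)) (e _ k))) (O_mul (m _ k) (e x hx))) (by ring)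

variable [IsAlgClosed L]

/-- equivariant roots of elements close to one -/
theorem near_rt (d : Ds F.D α S) (ha : a ∈ F.G α S) {v : AbsoluteValue L ℝ}
    (hv : IsNonarchimedean v) (hρ : ∀ g ∈ F.D, ∀ x ∈ F.A, v (F.ρ g x) = v x)
    (h : ∀ x ∈ S, v (a x - 1) < v 2 ^ (n + 1)) :
    ∃ c ∈ F.G α S, ∀ x ∈ S, c x ^ 2 ^ n = a x ∧ v (c x - 1) < v 2 := by
  choose! c c1 c2 using fun x hx => near_ex hv F.two_ne n (h x hx)
  refine ⟨c, fun x hx => ?_, fun x hx => ⟨c1 x hx, c2 x hx⟩⟩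
  have m : c x ∈ F.A := F.rt_pow n (c1 x hx ▸ (ha x hx).2.1)
  refine ⟨rt_ne ha c1 hx, m, fun g hg => ?_⟩
  have k := d.mem g hg x hx
  have z := rt_ne ha c1 k
  have o : v (c (α g x)) = 1 := by
    have := v_add hv (y := 1) (((c2 _ k).trans_le (v_two hv)).trans_eq v.map_one.symm)
    rwa [sub_add_cancel, v.map_one] at this
  refine (div_eq_one_iff_eq z).1 (near_uniq hv F.two_ne n ?_ ?_)
  · rw [div_pow, ← map_pow, c1 x hx, c1 _ k, (ha x hx).2.2 g hg, div_self (ha _ k).1]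
  · rw [div_sub_one z, map_div₀, o, div_one, show F.ρ g (c x) - c (α g x) =
      F.ρ g (c x - 1) + -(c (α g x) - 1) by rw [map_sub, map_one]; ring]
    exact (hv _ _).trans_lt (max_lt (by rw [hρ g hg _ (sub_mem m (one_mem _))]; exact c2 x hx)
      (by rw [v.map_neg]; exact c2 _ k))

/-- the symbol vanishes on elements close to one -/
theorem near (d : Ds F.D α S) (t : Tw F.D α S n τ) (ha : a ∈ F.G α S) (hb : b ∈ F.G α S)
    {v : AbsoluteValue L ℝ} (hv : IsNonarchimedean v)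
    (hρ : ∀ g ∈ F.D, ∀ x ∈ F.A, v (F.ρ g x) = v x) (h : ∀ x ∈ S, v (a x - 1) < v 2 ^ (n + 1)) :
    F.sym α S n τ a b = 0 ∧ F.sym α S n τ b a = 0 :=
  let ⟨_, c1, c2⟩ := near_rt d ha hv hρ h
  ⟨triv_l d t ha hb c1 fun x hx => (c2 x hx).1, triv_r d t hb ha c1 fun x hx => (c2 x hx).1⟩

/-- the symbol of a root of unity -/
theorem zeta {lo : K → K} (o : Lo lo) (d : Ds F.D α S) (t : Tw F.D α S n τ) (hu : u ∈ F.G α S)
    (m : ∀ x ∈ S, 2⁻¹ * (ε x - 1) ∈ O) (e : ∀ x ∈ S, hn n * (ε x * τ x - 1) ∈ O) {β : L}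
    (hβ : β ^ 2 ^ (n + n) = ∏ x ∈ S, u x) {κ : GQ → K} (c : ContinuousOn κ F.D)
    (hκ : ∀ g ∈ F.D, F.ρ g β = F.e (ex (κ g)) * β) : 2 • F.sym α S n τ (F.ze n ε) u =
      F.ι fun g h => 2 * hn (n + n) * lo (cy g) * (cy g * (2 ^ (n + n) * κ h)) := by
  have m' (x) (hx : x ∈ S) : ε x ∈ O := O_of (add_mem (O_mul O_two (m x hx)) O_one) (by ring)
  have he := tw_eps d t m' e
  have hz := ze_mem he
  have p : F.Ku α S n (F.ze n ε) fun g x => hn (n + n) * (cy g * ε x - ε (α g x)) := by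
    refine ⟨F.ze (n + n) ε, fun x _ => ?_, fun x hx => continuousOn_const.mul
      ((cy_cont.continuousOn.mul continuousOn_const).sub
        ((d.lc x hx).two (d.lc x hx) fun y _ => ε y).cont), fun g hg x _ => ?_⟩
    · rw [ze, ze, ← map_pow, ← ex_nat, ← hn_add n n]
      congr 2
      push_cast
      ring
    · rw [ze, ze, F.ex_act hg, ← map_mul, ← ex_add]
      congr 2
      ring
  obtain ⟨l, q⟩ := ex_ku d hu (n + n)
  have π : Mp F.D α S (fun _ (x : Unit) => x) {()} fun _ => () :=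
    ⟨fun _ _ => mem_singleton_self _, fun _ _ _ _ => rfl⟩
  have f : ∀ x ∈ ({()} : Finset Unit), ∏ y ∈ S, u y = ∏ y ∈ S with () = x, u y :=
    fun _ _ => by simp
  have hN := G_push (a := fun _ => ∏ y ∈ S, u y) hu π (ds_pt _) d f
  have q1 := q.push π (ds_pt _) d f
  have q2 : F.Ku (fun _ (x : Unit) => x) {()} (n + n) (fun _ => ∏ y ∈ S, u y) fun g _ => κ g :=
    ⟨fun _ => β, fun _ _ => hβ, fun _ _ => c, fun g hg _ _ => hκ g hg⟩
  obtain ⟨w, w1, w2⟩ := q1.dif q2 (ds_pt _) hN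
  have lv {x : K} (h : x ∈ O) : 2 ^ (n + n) * (2 * hn (n + n) * x) ∈ O :=
    O_of (O_mul O_two h) (by linear_combination 2 * x * hn_mul (n + n))
  have U {Y : Type} (α : GQ → Y → Y) (R : Finset Y) :
      C1 F.D α R (n + n) 1 fun g _ => 2 * hn (n + n) * lo (cy g) :=
    ⟨fun _ _ => (continuous_const.mul o.cont).continuousOn,
      fun g _ _ _ => lv (o.mem _ (cy_one g)), fun g _ h _ _ _ => O_of (zero_mem _) (by
        rw [map_mul, o.mul _ _ (cy_one g) (cy_one h), MonoidHom.one_apply]; ring)⟩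
  have V := (((p.c1 d hz).tw d t).smul O_two).up (Nat.le_add_right n n)
  calc _ = F.ι (cup α S (n + n) (fun g x => 2 * (τ (α g x) *
        (hn (n + n) * (cy g * ε x - ε (α g x))))) l) := by
        rw [sym_eq d t hz hu p q.down, ← F.iv.nat (z2 d t hz hu p q.down)]
        refine congrArg F.ι (funext₂ fun g h => ?_)
        simp only [cup, mul_sum]
        exact sum_congr rfl fun _ _ => by push_cast; ring
    _ = F.ι (cup α S (n + n) (fun g _ => 2 * hn (n + n) * lo (cy g)) l) := by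
        refine F.iv.cup d V (U α S) (q.c1 d hu) (q.c1 d hu) (c := fun _ => 0)
          (v := fun x => 2 * hn (n + n) * lo (ε x)) (fun x hx => lv (o.mem _ (m x hx)))
          (fun _ _ => by simp) (fun g hg x hx => ?_) fun _ _ _ _ => by simp
        have k := d.mem g hg x hx
        obtain ⟨y, y1, y2⟩ := un_inv (m _ k)
        have y3 : 2⁻¹ * (y - 1) ∈ O := O_of (neg_mem (O_mul y1 (m _ k)))
          (by linear_combination 2⁻¹ * y2)
        have r := un_mul (un_mul (cy_one g) (m x hx)) y3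
        have s := o.mul _ _ r (m _ k)
        rw [mul_assoc, mul_comm y, y2, mul_one, o.mul _ _ (cy_one g) (m x hx)] at s
        refine O_of (sub_mem (O_mul (O_mul O_two y1) (O_mul (e _ k) (he g hg x hx)))
          (o.near n _ r (O_of (O_mul y1 (he g hg x hx)) (by linear_combination hn n * y2)))) ?_
        rw [hn_two]
        linear_combination (-2 * hn n * hn n) * s + (2 * hn n * hn n *
          (-1 - τ (α g x) * (cy g * ε x - ε (α g x)))) * y2
    _ = F.ι (cup (fun _ (x : Unit) => x) {()} (n + n) (fun g _ => 2 * hn (n + n) * lo (cy g))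
        fun g x => ∑ y ∈ S with () = x, l g y) :=
        F.iv.congr (cup_z2 d (U α S) (q.c1 d hu)) (cup_z2 (ds_pt _) (U _ _) (q1.c1 (ds_pt _) hN))
          fun g _ h hh => O_of (zero_mem _) (sub_eq_zero.2
            (cup_push_r π (fun g _ => 2 * hn (n + n) * lo (cy g)) l hh))
    _ = F.ι (cup (fun _ (x : Unit) => x) {()} (n + n) (fun g _ => 2 * hn (n + n) * lo (cy g))
        fun g _ => κ g) :=
        F.iv.cup (ds_pt _) (U _ _) (U _ _) (q1.c1 (ds_pt _) hN) (q2.c1 (ds_pt _) hN)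
          (v := fun _ => 0) (fun _ _ => by simp) w1 (fun _ _ _ _ => by simp) w2
    _ = _ := congrArg F.ι (funext₂ fun g h => by simp [cup])

end Fd

end Vale.Agent.P014T.Sy
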