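import Vale.Agent.P014T.Sy.Val

/-!
# P014T, block SY: integer weights
-/

noncomputable section

namespace Vale.Agent.P014T.Sy

open Vale.Agent.P022 Vale.Agent.P022K Finset
open Vale.Agent.P004S.Ga (K O mem_O d2 d3 Z2 B2)
open Vale.Agent.P004S.Aq
open Vale.Agent.P004F.Rc (hn hn_mul O_nat)

theorem O_z (c : ℤ) : (c : K) ∈ O := intCast_mem (PadicInt.subring 2) c

theorem ex_int (m : ℤ) (x : K) : ex (m * x) = ex x ^ m := by
  obtain ⟨k, rfl | rfl⟩ := m.eq_nat_or_neg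
  · rw [Int.cast_natCast, ex_nat, zpow_natCast]
  · rw [Int.cast_neg, Int.cast_natCast, neg_mul, ex_neg, ex_nat, zpow_neg, zpow_natCast]

theorem Tw.wt {D : Subgroup GQ} {X : Type} {α : GQ → X → X} {S : Finset X} {n : ℕ} {τ w : X → K}
    (t : Tw D α S n τ) (m : ∀ x ∈ S, w x ∈ O) (hw : ∀ g ∈ D, ∀ x ∈ S, w (α g x) = w x) :
    Tw D α S n fun x => w x * τ x :=
  ⟨fun x hx => O_mul (m x hx) (t.mem x hx), fun g hg x hx =>
    O_of (O_mul (m x hx) (t.eq g hg x hx)) (by rw [hw g hg x hx]; ring)⟩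

namespace Fd

variable {L X : Type} [Field L] {F : Fd L} {α : GQ → X → X} {S : Finset X} {n : ℕ}
  {a b : X → L} {τ : X → K} {w : X → ℤ} {l : GQ → X → K}

theorem G_zpow (hb : b ∈ F.G α S) (hw : ∀ g ∈ F.D, ∀ x ∈ S, w (α g x) = w x) :
    (fun x => b x ^ w x) ∈ F.G α S := fun x hx =>
  ⟨zpow_ne_zero _ (hb x hx).1, zpow_mem (hb x hx).2.1 _, fun g hg => by
    simp only [map_zpow₀, (hb x hx).2.2 g hg, hw g hg x hx]⟩

theorem Ku.zpow (h : F.Ku α S n b l) (hw : ∀ g ∈ F.D, ∀ x ∈ S, w (α g x) = w x) :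
    F.Ku α S n (fun x => b x ^ w x) fun g x => w x * l g x := by
  obtain ⟨β, h1, h2, h3⟩ := h
  refine ⟨fun x => β x ^ w x, fun x hx => ?_, fun x hx => continuousOn_const.mul (h2 x hx),
    fun g hg x hx => ?_⟩
  · simp only
    rw [← h1 x hx, ← zpow_natCast, ← zpow_natCast, ← zpow_mul, ← zpow_mul, mul_comm]
  · simp only
    rw [map_zpow₀, h3 g hg x hx, hw g hg x hx, ex_int, map_zpow₀, mul_zpow]

variable [IsAlgClosed L] (d : Ds F.D α S) (t : Tw F.D α S n τ) (ha : a ∈ F.G α S)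
  (hb : b ∈ F.G α S)
include d t ha hb

/-- an invariant integer weight can be moved into the exponent -/
theorem wt_r (hw : ∀ g ∈ F.D, ∀ x ∈ S, w (α g x) = w x) :
    F.sym α S n (fun x => w x * τ x) a b = F.sym α S n τ a fun x => b x ^ w x := by
  obtain ⟨k, p⟩ := ex_ku d ha n
  obtain ⟨l, q⟩ := ex_ku d hb n
  have t' := t.wt (w := fun x => w x) (fun x _ => O_z _) fun g hg x hx => by rw [hw g hg x hx]
  rw [sym_eq d t' ha hb p q, sym_eq d t ha (G_zpow hb hw) p (q.zpow hw)]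
  refine F.iv.congr (z2 d t' ha hb p q) (z2 d t ha (G_zpow hb hw) p (q.zpow hw))
    fun g hg h hh => O_of (zero_mem O) (sub_eq_zero.2 (sum_congr rfl fun x hx => ?_))
  simp only [hw g hg _ (d.mem h hh x hx), hw h hh x hx]
  ring

theorem wt_l (hw : ∀ g ∈ F.D, ∀ x ∈ S, w (α g x) = w x) :
    F.sym α S n (fun x => w x * τ x) a b = F.sym α S n τ (fun x => a x ^ w x) b := by
  rw [anti d (t.wt (w := fun x => w x) (fun x _ => O_z _) fun g hg x hx => by rw [hw g hg x hx])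
    ha hb, wt_r d t hb ha hw, anti d t (G_zpow ha hw) hb]

theorem zpow_r (m : ℤ) : F.sym α S n τ a (b ^ m) = m • F.sym α S n τ a b := by
  obtain ⟨k, rfl | rfl⟩ := m.eq_nat_or_neg
  · rw [zpow_natCast, pow_r d t ha hb, natCast_zsmul]
  · rw [zpow_neg, zpow_natCast, neg_zsmul, natCast_zsmul, ← pow_r d t ha hb, eq_neg_iff_add_eq_zero,
      ← mr d t ha (G_inv (pow_mem hb k)) (pow_mem hb k)]
    exact triv_r d t ha (mul_mem (G_inv (pow_mem hb k)) (pow_mem hb k)) (one_mem _) fun x hx => by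
      rw [Pi.one_apply, one_pow, Pi.mul_apply, Pi.inv_apply, inv_mul_cancel₀ (pow_mem hb k x hx).1]

theorem zpow_l (m : ℤ) : F.sym α S n τ (a ^ m) b = m • F.sym α S n τ a b := by
  have : a ^ m ∈ F.G α S := G_zpow (w := fun _ => m) ha fun _ _ _ _ => rfl
  rw [anti d t this hb, zpow_r d t hb ha, anti d t ha hb, zsmul_neg]

/-- a scalar in the twist -/
theorem sym_smul {c : K} {m : ℤ} (hc : c ∈ O) (e : hn n * (c - m) ∈ O) :
    F.sym α S n (fun x => c * τ x) a b = m • F.sym α S n τ a b := by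
  rw [← zpow_r d t ha hb]
  refine Eq.trans ?_ (wt_r (w := fun _ => m) d t ha hb fun _ _ _ _ => rfl)
  exact sym_congr d (t.wt (w := fun _ => m) (fun _ _ => O_z m) fun _ _ _ _ => rfl) ha hb
    (fun _ _ => rfl) (fun _ _ => rfl) (t.wt (w := fun _ => c) (fun _ _ => hc) fun _ _ _ _ => rfl)
    fun x hx => O_of (O_mul e (t.mem x hx)) (by ring)

end Fd

end Vale.Agent.P014T.Sy
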