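import Vale.Agent.P014T.Sy.Ex

/-!
# P014T, block SY: finite sets with an action of `D`, cocycles of the groupoid, cup products
-/

noncomputable section

namespace Vale.Agent.P014T.Sy

open Vale.Agent.P022 Vale.Agent.P022K Topology Filter Finset
open Vale.Agent.P004S.Ga (K O mem_O d2 d3 Z2 B2)
open Vale.Agent.P004S.Aq
open Vale.Agent.P004F.Rc (hn hn_mul O_nat)

variable {D : Subgroup GQ} {X Y T : Type}

/-- locally constant on `D` -/
def Lc (D : Subgroup GQ) (f : GQ → T) : Prop := ∀ g ∈ D, ∀ᶠ h in 𝓝[D] g, f h = f g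

theorem Lc.of_nhds {f : GQ → T} {W : Set GQ} (hW : W ∈ 𝓝 (1 : GQ))
    (h : ∀ g ∈ D, ∀ w ∈ D, w ∈ W → f (g * w) = f g) : Lc D f := fun g hg => by
  have : ∀ᶠ k in 𝓝 g, g⁻¹ * k ∈ W :=
    (continuous_const.mul continuous_id).continuousAt.preimage_mem_nhds (by simpa using hW)
  filter_upwards [mem_nhdsWithin_of_mem_nhds this, self_mem_nhdsWithin] with k a b
  simpa using h g hg _ (mul_mem (inv_mem hg) b) a

theorem Lc.of_lc {f : GQ → T} (h : IsLocallyConstant f) : Lc D f := fun g _ =>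
  mem_nhdsWithin_of_mem_nhds (h.eventually_eq g)

theorem Lc.two {T' T'' : Type} {f : GQ → T} {f' : GQ → T'} (h : Lc D f) (h' : Lc D f')
    (φ : T → T' → T'') : Lc D fun g => φ (f g) (f' g) := fun g hg => by
  filter_upwards [h g hg, h' g hg] with k a b
  rw [a, b]

theorem Lc.cont [TopologicalSpace T] {f : GQ → T} (h : Lc D f) : ContinuousOn f D := fun g hg =>
  (continuousWithinAt_const (b := f g)).congr_of_eventuallyEq (h g hg) rfl

theorem sel {P : Type} [TopologicalSpace P] {U : Set P} {s : P → X} {S : Finset X} {F : P → X → K}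
    (hs : ∀ p ∈ U, ∀ᶠ q in 𝓝[U] p, s q = s p) (m : ∀ p ∈ U, s p ∈ S)
    (hF : ∀ y ∈ S, ContinuousOn (fun p => F p y) U) : ContinuousOn (fun p => F p (s p)) U :=
  fun p hp => (hF _ (m p hp) p hp).congr_of_eventuallyEq
    ((hs p hp).mono fun q e => by simp only [e]) rfl

theorem c_fst {f : GQ → K} (h : ContinuousOn f D) :
    ContinuousOn (fun p : GQ × GQ => f p.1) ((D : Set GQ) ×ˢ (D : Set GQ)) :=
  h.comp continuousOn_fst fun _ m => m.1

theorem c_snd {f : GQ → K} (h : ContinuousOn f D) :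
    ContinuousOn (fun p : GQ × GQ => f p.2) ((D : Set GQ) ×ˢ (D : Set GQ)) :=
  h.comp continuousOn_snd fun _ m => m.2

/-- a finite set with a smooth action of `D` -/
structure Ds (D : Subgroup GQ) (α : GQ → X → X) (S : Finset X) : Prop where
  mem : ∀ g ∈ D, ∀ x ∈ S, α g x ∈ S
  one : ∀ x ∈ S, α 1 x = x
  mul : ∀ g ∈ D, ∀ h ∈ D, ∀ x ∈ S, α (g * h) x = α g (α h x)
  lc : ∀ x ∈ S, Lc D fun g => α g x

variable {α : GQ → X → X} {S : Finset X} {α' : GQ → Y → Y} {R : Finset Y} {n : ℕ} {g h : GQ}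
  {u u' k k' l l' : GQ → X → K} {τ : X → K} {χ : GQ →* K}

theorem Ds.inv_l (d : Ds D α S) (hg : g ∈ D) {x : X} (hx : x ∈ S) : α g⁻¹ (α g x) = x := by
  rw [← d.mul _ (inv_mem hg) _ hg _ hx, inv_mul_cancel, d.one _ hx]

theorem Ds.inv_r (d : Ds D α S) (hg : g ∈ D) {x : X} (hx : x ∈ S) : α g (α g⁻¹ x) = x := by
  simpa using d.inv_l (inv_mem hg) hx

theorem Ds.prod {M : Type} [CommMonoid M] (d : Ds D α S) (hg : g ∈ D) (f : X → M) :
    ∏ x ∈ S, f (α g x) = ∏ x ∈ S, f x :=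
  prod_nbij' (α g) (α g⁻¹) (d.mem g hg) (d.mem _ (inv_mem hg)) (fun _ => d.inv_l hg)
    (fun _ => d.inv_r hg) fun _ _ => rfl

theorem Ds.sum (d : Ds D α S) (hg : g ∈ D) (f : X → K) : ∑ x ∈ S, f (α g x) = ∑ x ∈ S, f x :=
  d.prod (M := Multiplicative K) hg f

theorem Ds.sub (d : Ds D α S) {S' : Finset X} (e : S' ⊆ S) (m : ∀ g ∈ D, ∀ x ∈ S', α g x ∈ S') :
    Ds D α S' :=
  ⟨m, fun x hx => d.one x (e hx), fun g hg h hh x hx => d.mul g hg h hh x (e hx),
    fun x hx => d.lc x (e hx)⟩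

theorem ds_pt (D : Subgroup GQ) : Ds D (fun _ (x : Unit) => x) {()} :=
  ⟨fun _ _ _ h => h, fun _ _ => rfl, fun _ _ _ _ _ _ => rfl, fun _ _ _ _ => .of_forall fun _ => rfl⟩

/-- an equivariant map -/
structure Mp (D : Subgroup GQ) (α' : GQ → Y → Y) (R : Finset Y) (α : GQ → X → X) (S : Finset X)
    (π : Y → X) : Prop where
  mem : ∀ y ∈ R, π y ∈ S
  eq : ∀ g ∈ D, ∀ y ∈ R, π (α' g y) = α g (π y)

theorem Mp.prod [DecidableEq X] {M : Type} [CommMonoid M] {π : Y → X} (p : Mp D α' R α S π)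
    (d : Ds D α S) (d' : Ds D α' R) (hg : g ∈ D) {x : X} (hx : x ∈ S) (f : Y → M) :
    ∏ y ∈ R with π y = x, f (α' g y) = ∏ y ∈ R with π y = α g x, f y := by
  refine prod_nbij' (α' g) (α' g⁻¹) (fun y hy => ?_) (fun y hy => ?_)
    (fun y hy => d'.inv_l hg (mem_filter.1 hy).1) (fun y hy => d'.inv_r hg (mem_filter.1 hy).1)
    fun _ _ => rfl <;> rw [mem_filter] at hy ⊢
  · exact ⟨d'.mem g hg y hy.1, by rw [p.eq g hg y hy.1, hy.2]⟩
  · exact ⟨d'.mem _ (inv_mem hg) y hy.1, by rw [p.eq _ (inv_mem hg) y hy.1, hy.2, d.inv_l hg hx]⟩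

/-- cocycles of the groupoid, of level `n`, twisted by `χ` -/
structure C1 (D : Subgroup GQ) (α : GQ → X → X) (S : Finset X) (n : ℕ) (χ : GQ →* K)
    (k : GQ → X → K) : Prop where
  cont : ∀ x ∈ S, ContinuousOn (fun g => k g x) D
  lev : ∀ g ∈ D, ∀ x ∈ S, 2 ^ n * k g x ∈ O
  coc : ∀ g ∈ D, ∀ h ∈ D, ∀ x ∈ S, k (g * h) x - k g (α h x) - χ g * k h x ∈ O

theorem C1.add (a : C1 D α S n χ k) (b : C1 D α S n χ l) : C1 D α S n χ fun g x => k g x + l g x :=
  ⟨fun x hx => (a.cont x hx).add (b.cont x hx),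
    fun g hg x hx => O_of (add_mem (a.lev g hg x hx) (b.lev g hg x hx)) (by ring),
    fun g hg h hh x hx => O_of (add_mem (a.coc g hg h hh x hx) (b.coc g hg h hh x hx)) (by ring)⟩

theorem C1.smul (a : C1 D α S n χ k) {c : K} (hc : c ∈ O) : C1 D α S n χ fun g x => c * k g x :=
  ⟨fun x hx => continuousOn_const.mul (a.cont x hx),
    fun g hg x hx => O_of (O_mul hc (a.lev g hg x hx)) (by ring),
    fun g hg h hh x hx => O_of (O_mul hc (a.coc g hg h hh x hx)) (by ring)⟩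

theorem C1.up (a : C1 D α S n χ k) {m : ℕ} (e : n ≤ m) : C1 D α S m χ k :=
  ⟨a.cont, fun g hg x hx => lev_up (a.lev g hg x hx) e, a.coc⟩

theorem C1.sub (a : C1 D α S n χ k) {S' : Finset X} (e : S' ⊆ S) : C1 D α S' n χ k :=
  ⟨fun x hx => a.cont x (e hx), fun g hg x hx => a.lev g hg x (e hx),
    fun g hg h hh x hx => a.coc g hg h hh x (e hx)⟩

theorem C1.pull {π : Y → X} (a : C1 D α S n χ k) (p : Mp D α' R α S π) :
    C1 D α' R n χ fun g y => k g (π y) :=
  ⟨fun y hy => a.cont _ (p.mem y hy), fun g hg y hy => a.lev g hg _ (p.mem y hy),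
    fun g hg h hh y hy => by rw [p.eq h hh y hy]; exact a.coc g hg h hh _ (p.mem y hy)⟩

/-- twists: `τ` is an equivariant section of the dual of the roots of unity of order `2 ^ n` -/
structure Tw (D : Subgroup GQ) (α : GQ → X → X) (S : Finset X) (n : ℕ) (τ : X → K) : Prop where
  mem : ∀ x ∈ S, τ x ∈ O
  eq : ∀ g ∈ D, ∀ x ∈ S, hn n * (τ (α g x) * cy g - τ x) ∈ O

theorem O_hn {x y : K} (hx : hn n * x ∈ O) (hy : 2 ^ n * y ∈ O) : x * y ∈ O :=
  O_of (O_mul hx hy) (by linear_combination (-x * y) * hn_mul n)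

theorem Tw.down (t : Tw D α S n τ) {m : ℕ} (e : m ≤ n) : Tw D α S m τ := by
  obtain ⟨j, rfl⟩ := Nat.exists_eq_add_of_le e
  exact ⟨t.mem, fun g hg x hx => O_of (O_mul (O_pow j) (t.eq g hg x hx))
    (by rw [← hn_add m j]; ring)⟩

theorem Tw.pull {π : Y → X} (t : Tw D α S n τ) (p : Mp D α' R α S π) : Tw D α' R n (τ ∘ π) :=
  ⟨fun y hy => t.mem _ (p.mem y hy), fun g hg y hy => by
    simpa only [Function.comp, p.eq g hg y hy] using t.eq g hg _ (p.mem y hy)⟩

theorem Tw.sub (t : Tw D α S n τ) {S' : Finset X} (e : S' ⊆ S) : Tw D α S' n τ :=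
  ⟨fun x hx => t.mem x (e hx), fun g hg x hx => t.eq g hg x (e hx)⟩

theorem C1.tw (a : C1 D α S n cy k) (d : Ds D α S) (t : Tw D α S n τ) :
    C1 D α S n 1 fun g x => τ (α g x) * k g x := by
  refine ⟨fun x hx => (((d.lc x hx).two (d.lc x hx) fun y _ => τ y).cont).mul (a.cont x hx),
    fun g hg x hx => O_of (O_mul (t.mem _ (d.mem g hg x hx)) (a.lev g hg x hx)) (by ring),
    fun g hg h hh x hx => ?_⟩
  have m := d.mem h hh x hx
  rw [d.mul g hg h hh x hx]
  exact O_of (add_mem (O_mul (t.mem _ (d.mem g hg _ m)) (a.coc g hg h hh x hx))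
    (O_hn (t.eq g hg _ m) (a.lev h hh x hx))) (by simp only [MonoidHom.one_apply]; ring)

/-- the trace of the cup product -/
def cup (α : GQ → X → X) (S : Finset X) (n : ℕ) (u l : GQ → X → K) (g h : GQ) : K :=
  ∑ x ∈ S, u g (α h x) * (cy g * (2 ^ n * l h x))

theorem cup_z2 (d : Ds D α S) (a : C1 D α S n 1 u) (b : C1 D α S n cy l) :
    Z2 cy D (cup α S n u l) := by
  refine ⟨continuousOn_finsetSum _ fun x hx => ContinuousOn.mul ?_
    ((c_fst cy_cont.continuousOn).mul (continuousOn_const.mul (c_snd (b.cont x hx)))),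
    fun g hg h hh j hj => ?_⟩
  · refine sel (F := fun (p : GQ × GQ) y => u p.1 y) (s := fun p => α p.2 x) (S := S)
      (fun p hp => ?_) (fun p hp => d.mem _ hp.2 x hx)
      fun y hy => c_fst (a.cont y hy)
    exact (continuousWithinAt_snd.tendsto_nhdsWithin fun _ m => m.2).eventually (d.lc x hx _ hp.2)
  · unfold d3 cup
    rw [← d.sum hj fun x => u g (α h x) * (cy g * (2 ^ n * l h x)), mul_sum, ← sum_sub_distrib,
      ← sum_add_distrib, ← sum_sub_distrib]
    refine sum_mem fun x hx => ?_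
    have m := d.mem j hj x hx
    rw [d.mul h hh j hj x hx, map_mul]
    exact O_of (sub_mem (O_mul (O_mul (O_cy g) (a.lev g hg _ (d.mem h hh _ m))) (b.coc h hh j hj x hx))
      (O_mul (O_mul (O_mul (O_cy g) (O_cy h)) (b.lev j hj x hx)) (a.coc g hg h hh _ m)))
      (by simp only [MonoidHom.one_apply]; ring)

theorem cup_congr (d : Ds D α S) (a : C1 D α S n 1 u) (b : C1 D α S n cy l')
    (e : ∀ g ∈ D, ∀ x ∈ S, u' g x - u g x ∈ O) (e' : ∀ g ∈ D, ∀ x ∈ S, l g x - l' g x ∈ O)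
    (hg : g ∈ D) (hh : h ∈ D) : cup α S n u l g h - cup α S n u' l' g h ∈ O := by
  unfold cup
  rw [← sum_sub_distrib]
  refine sum_mem fun x hx => ?_
  have m := d.mem h hh x hx
  exact O_of (O_mul (O_cy g) (sub_mem (O_mul (a.lev g hg _ m) (e' h hh x hx))
    (O_mul (e g hg _ m) (b.lev h hh x hx)))) (by ring)

theorem cob_l (d : Ds D α S) (b : C1 D α S n cy l) {v : X → K} (hv : ∀ x ∈ S, 2 ^ n * v x ∈ O)
    (e : ∀ g ∈ D, ∀ x ∈ S, u g x - (v x - v (α g x)) ∈ O) : B2 cy D (cup α S n u l) := by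
  refine ⟨fun g => ∑ x ∈ S, v (α g x) * (2 ^ n * l g x), continuousOn_finsetSum _ fun x hx =>
    (((d.lc x hx).two (d.lc x hx) fun y _ => v y).cont).mul (continuousOn_const.mul (b.cont x hx)),
    fun g hg h hh => ?_⟩
  simp only [d2, cup]
  rw [← d.sum hh fun x => v (α g x) * (2 ^ n * l g x), mul_sum, ← sum_sub_distrib,
    ← sum_add_distrib, ← sum_sub_distrib]
  refine sum_mem fun x hx => ?_
  have m := d.mem h hh x hx
  rw [d.mul g hg h hh x hx]
  exact O_of (add_mem (O_mul (O_mul (O_cy g) (b.lev h hh x hx)) (e g hg _ m))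
    (O_mul (hv _ (d.mem g hg _ m)) (b.coc g hg h hh x hx))) (by ring)

theorem cob_r (d : Ds D α S) (a : C1 D α S n 1 u) {c : X → K} (hc : ∀ x ∈ S, 2 ^ n * c x ∈ O)
    (e : ∀ g ∈ D, ∀ x ∈ S, l g x - (cy g * c x - c (α g x)) ∈ O) : B2 cy D (cup α S n u l) := by
  refine ⟨fun g => ∑ x ∈ S, -(u g x * (cy g * (2 ^ n * c x))), continuousOn_finsetSum _ fun x hx =>
    ((a.cont x hx).mul (cy_cont.continuousOn.mul continuousOn_const)).neg, fun g hg h hh => ?_⟩
  simp only [d2, cup]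
  rw [← d.sum hh fun x => -(u g x * (cy g * (2 ^ n * c x))), mul_sum, ← sum_sub_distrib,
    ← sum_add_distrib, ← sum_sub_distrib]
  refine sum_mem fun x hx => ?_
  rw [map_mul]
  exact O_of (sub_mem (O_mul (O_mul (O_cy g) (a.lev g hg _ (d.mem h hh x hx))) (e h hh x hx))
    (O_mul (O_mul (O_mul (O_cy g) (O_cy h)) (hc x hx)) (a.coc g hg h hh x hx)))
    (by simp only [MonoidHom.one_apply]; ring)

theorem cob_skew (d : Ds D α S) (t : Tw D α S n τ) (a : C1 D α S n cy k) (b : C1 D α S n cy l) :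
    B2 cy D fun g h => cup α S n (fun g x => τ (α g x) * k g x) l g h +
      cup α S n (fun g x => τ (α g x) * l g x) k g h := by
  refine ⟨fun g => ∑ x ∈ S, -(τ (α g x) * k g x * (2 ^ n * l g x)), continuousOn_finsetSum _
    fun x hx => (((a.tw d t).cont x hx).mul (continuousOn_const.mul (b.cont x hx))).neg,
    fun g hg h hh => ?_⟩
  simp only [d2, cup]
  rw [← d.sum hh fun x => -(τ (α g x) * k g x * (2 ^ n * l g x)), mul_sum, ← sum_sub_distrib,
    ← sum_add_distrib, ← sum_add_distrib, ← sum_sub_distrib]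
  refine sum_mem fun x hx => ?_
  have m := d.mem h hh x hx
  rw [d.mul g hg h hh x hx]
  have tm := t.mem _ (d.mem g hg _ m)
  refine O_of (sub_mem (sub_mem (neg_mem (O_mul (O_mul (O_cy g) (t.eq g hg _ m))
    (O_mul (a.lev h hh x hx) (b.lev h hh x hx))))
    (O_mul (O_mul tm (a.coc g hg h hh x hx)) (b.lev _ (mul_mem hg hh) x hx)))
    (O_mul (O_mul tm (b.coc g hg h hh x hx))
      (add_mem (a.lev g hg _ m) (O_mul (O_cy g) (a.lev h hh x hx))))) ?_
  linear_combination (cy g * (τ (α g (α h x)) * cy g - τ (α h x)) * k h x * (2 ^ n * l h x)) *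
    hn_mul n

theorem C1.push [DecidableEq X] {π : Y → X} {k : GQ → Y → K} (a : C1 D α' R n χ k)
    (p : Mp D α' R α S π) (d : Ds D α S) (d' : Ds D α' R) :
    C1 D α S n χ fun g x => ∑ y ∈ R with π y = x, k g y := by
  refine ⟨fun x _ => continuousOn_finsetSum _ fun y hy => a.cont y (mem_filter.1 hy).1,
    fun g hg x _ => ?_, fun g hg h hh x hx => ?_⟩
  · rw [mul_sum]
    exact sum_mem fun y hy => a.lev g hg y (mem_filter.1 hy).1
  · have := p.prod (M := Multiplicative K) d d' hh hx (k g)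
    change ∑ y ∈ R with π y = x, k g (α' h y) = ∑ y ∈ R with π y = α h x, k g y at this
    rw [← this, mul_sum, ← sum_sub_distrib, ← sum_sub_distrib]
    exact sum_mem fun y hy => a.coc g hg h hh y (mem_filter.1 hy).1

theorem cup_push_l [DecidableEq X] {π : Y → X} (p : Mp D α' R α S π) (d : Ds D α S)
    (d' : Ds D α' R) (u : GQ → Y → K) (l : GQ → X → K) (hh : h ∈ D) :
    cup α' R n u (fun g y => l g (π y)) g h =
      cup α S n (fun g x => ∑ y ∈ R with π y = x, u g y) l g h := by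
  unfold cup
  rw [← sum_fiberwise_of_maps_to p.mem]
  refine sum_congr rfl fun x hx => ?_
  have := p.prod (M := Multiplicative K) d d' hh hx (u g)
  change ∑ y ∈ R with π y = x, u g (α' h y) = ∑ y ∈ R with π y = α h x, u g y at this
  simp only
  rw [← this, sum_mul]
  exact sum_congr rfl fun y hy => by rw [(mem_filter.1 hy).2]

theorem cup_push_r [DecidableEq X] {π : Y → X} (p : Mp D α' R α S π) (u : GQ → X → K)
    (l : GQ → Y → K) (hh : h ∈ D) :
    cup α' R n (fun g y => u g (π y)) l g h =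
      cup α S n u (fun g x => ∑ y ∈ R with π y = x, l g y) g h := by
  unfold cup
  rw [← sum_fiberwise_of_maps_to p.mem]
  refine sum_congr rfl fun x hx => ?_
  simp only [mul_sum]
  exact sum_congr rfl fun y hy => by rw [p.eq h hh y (mem_filter.1 hy).1, (mem_filter.1 hy).2]

/-- invariants: additive on cocycles, zero on coboundaries -/
structure Iv (D : Subgroup GQ) (ι : (GQ → GQ → K) → K ⧸ O) : Prop where
  add : ∀ z w, Z2 cy D z → Z2 cy D w → ι (fun g h => z g h + w g h) = ι z + ι w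
  cob : ∀ z, Z2 cy D z → B2 cy D z → ι z = 0

variable {ι : (GQ → GQ → K) → K ⧸ O} {z w : GQ → GQ → K}

theorem z2_add (a : Z2 cy D z) (b : Z2 cy D w) : Z2 cy D fun g h => z g h + w g h :=
  ⟨a.cont.add b.cont, fun g hg h hh j hj =>
    O_of (add_mem (a.coc g hg h hh j hj) (b.coc g hg h hh j hj)) (by unfold d3; ring)⟩

theorem z2_smul (a : Z2 cy D z) {c : K} (hc : c ∈ O) : Z2 cy D fun g h => c * z g h :=
  ⟨continuousOn_const.mul a.cont, fun g hg h hh j hj =>
    O_of (O_mul hc (a.coc g hg h hh j hj)) (by unfold d3; ring)⟩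

theorem b2_of (e : ∀ g ∈ D, ∀ h ∈ D, z g h ∈ O) : B2 cy D z :=
  ⟨fun _ => 0, continuousOn_const, fun g hg h hh => by simpa [d2] using e g hg h hh⟩

theorem Iv.congr (i : Iv D ι) (a : Z2 cy D z) (b : Z2 cy D w)
    (e : ∀ g ∈ D, ∀ h ∈ D, z g h - w g h ∈ O) : ι z = ι w := by
  have c := z2_add a (z2_smul b (neg_mem O_one))
  have := i.add _ _ c b
  rw [i.cob _ c (b2_of fun g hg h hh => O_of (e g hg h hh) (by ring)), zero_add] at this
  rw [← this]
  exact congrArg ι (by ext; ring)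

theorem Iv.nat (i : Iv D ι) (a : Z2 cy D z) (m : ℕ) : ι (fun g h => m * z g h) = m • ι z := by
  induction m with
  | zero =>
    rw [zero_nsmul]
    exact i.cob _ (z2_smul a (O_nat 0)) (b2_of fun _ _ _ _ => by simp)
  | succ m ih =>
    rw [succ_nsmul, ← ih, ← i.add _ _ (z2_smul a (O_nat m)) a]
    exact congrArg ι (by ext; push_cast; ring)

/-- the invariant of the cup product only depends on the classes -/
theorem Iv.cup (i : Iv D ι) (d : Ds D α S) (a : C1 D α S n 1 u) (a' : C1 D α S n 1 u')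
    (b : C1 D α S n cy l) (b' : C1 D α S n cy l') {v c : X → K} (hv : ∀ x ∈ S, 2 ^ n * v x ∈ O)
    (hc : ∀ x ∈ S, 2 ^ n * c x ∈ O)
    (e : ∀ g ∈ D, ∀ x ∈ S, u g x - u' g x - (v x - v (α g x)) ∈ O)
    (e' : ∀ g ∈ D, ∀ x ∈ S, l g x - l' g x - (cy g * c x - c (α g x)) ∈ O) :
    ι (cup α S n u l) = ι (cup α S n u' l') := by
  have s := a.add (a'.smul (neg_mem O_one))
  have s' := b.add (b'.smul (neg_mem O_one))
  have h1 := i.add _ _ (cup_z2 d s b) (cup_z2 d a' b)
  have h2 := i.add _ _ (cup_z2 d a' s') (cup_z2 d a' b')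
  rw [i.cob _ (cup_z2 d s b) (cob_l d b hv fun g hg x hx => O_of (e g hg x hx) (by ring)),
    zero_add] at h1
  rw [i.cob _ (cup_z2 d a' s') (cob_r d a' hc fun g hg x hx => O_of (e' g hg x hx) (by ring)),
    zero_add] at h2
  rw [← h2]
  refine Eq.trans ?_ (h1.trans ?_) <;> refine congrArg ι (funext₂ fun g h => ?_) <;>
    simp only [Sy.cup, ← sum_add_distrib] <;> exact sum_congr rfl fun _ _ => by ring

end Vale.Agent.P014T.Sy
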